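import Vale.Agent.P024.ALL.H95.F1

/-!
P024, block (F) of note 20992: a homomorphism with many matched primes of degree one is induced.
-/

namespace Vale.Agent.P024.ALL.H95

open scoped NumberField ENNReal Topology
open IsDedekindDomain NumberField Filter Vale.Agent.P024 Vale.Agent.P024.ALL

section

variable {E₁ E₂ : Type*} [Field E₁] [CharZero E₁] [Field E₂] [CharZero E₂]
    {F : IntermediateField ℚ E₁} [NumberField F]

/-- The primes of norm one modulo `p` which are matched with a rational prime congruent to one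
modulo `p`. -/
def PS (a : (E₁ ≃ₐ[F] E₁) →* (E₂ ≃ₐ[ℚ] E₂)) (p : ℕ) : Set (HeightOneSpectrum (𝓞 F)) :=
  {v | Ideal.absNorm v.asIdeal ≡ 1 [MOD p] ∧ (p : 𝓞 F) ∉ v.asIdeal ∧
    ∃ r : ℕ, r.Prime ∧ p ∣ r - 1 ∧ Hit a v r}

/-- The decomposition groups of matched primes act trivially on the roots of unity. -/
theorem fix_of_hit [Algebra.IsAlgebraic ℚ E₁] [IsGalois F E₁] (a : (E₁ ≃ₐ[F] E₁) →* (E₂ ≃ₐ[ℚ] E₂))
    {p r : ℕ} (hr : r.Prime) (hpr : p ∣ r - 1) {v : HeightOneSpectrum (𝓞 F)} (hv : Hit a v r)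
    (O : ValuationSubring E₁) (hO : O ≠ ⊤) (hOv : IsCenter O v) (s : E₁ ≃ₐ[F] E₁)
    (hs : Stab O s) (z : E₂) (hz : z ^ p = 1) : a s z = z := by
  obtain ⟨O', O₂, hO', -, hO'v, hst, hrO₂⟩ := hv
  obtain ⟨g, hg⟩ := exists_conj (M := F) O O' hO hO' (by
    intro x
    rw [(mem_iff_of_center O hO v hOv x).1, (mem_iff_of_center O' hO' v hO'v x).1])
  have h1 : Stab O' (g * s * g⁻¹) := by
    intro x
    have hgi : ∀ x, g⁻¹ x ∈ O ↔ x ∈ O' := by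
      intro x
      rw [← hg, ← AlgEquiv.mul_apply, mul_inv_cancel, AlgEquiv.one_apply]
    rw [AlgEquiv.mul_apply, AlgEquiv.mul_apply, hg, hs, hgi]
  have h2 := stab_root O₂ hr hrO₂ hpr (hst _ h1) (z := a g z) (by
    rw [← map_pow, hz, map_one])
  rw [map_mul, map_mul, map_inv, AlgEquiv.mul_apply, AlgEquiv.mul_apply,
    ← AlgEquiv.mul_apply (a g)⁻¹ (a g), inv_mul_cancel, AlgEquiv.one_apply] at h2
  exact (a g).injective h2

theorem exists_open_power' [IsGalois F E₁] [IsGalois ℚ E₂] (hE₁ : SolvablyClosed E₁)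
    (hE₂ : SolvablyClosed E₂) (α : (E₁ ≃ₐ[F] E₁) →* (E₂ ≃ₐ[ℚ] E₂)) (hα : Continuous α)
    {p : ℕ} (hp : p.Prime) {δ : ℝ}
    (hG : ∃ᶠ s : ℝ in 𝓝[>] 1, ENNReal.ofReal (δ / (p - 1) * Real.log (1 / (s - 1))) ≤
      ∑' v : PS α p, ENNReal.ofReal (nm F v.1 s))
    (m : ℕ) (hm : 0 < m) (hδm : (Module.finrank ℚ F : ℝ) / m < δ) (g : E₁ ≃ₐ[F] E₁)
    (hg : ∀ z : E₁, z ^ p = 1 → g z = z) :
    ∃ i : ℕ, 0 < i ∧ i < m ∧ ∀ z : E₂, z ^ p = 1 → α (g ^ i) z = z := by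
  classical
  have : Algebra.IsAlgebraic ℚ E₁ := Algebra.IsAlgebraic.trans ℚ F E₁
  have : Algebra.IsAlgebraic ℚ E₂ := Algebra.IsAlgebraic.trans ℚ ℚ E₂
  have hnz : NeZero p := ⟨hp.ne_zero⟩
  obtain ⟨ζ₁, hζ₁⟩ := hE₁.exists_primitiveRoot p hp.pos
  obtain ⟨ζ₂, hζ₂⟩ := hE₂.exists_primitiveRoot p hp.pos
  let W : Subgroup (E₁ ≃ₐ[F] E₁) :=
    (MulAction.stabilizer (E₂ ≃ₐ[ℚ] E₂) ζ₂).comap α ⊓ MulAction.stabilizer (E₁ ≃ₐ[F] E₁) ζ₁
  have hWo : IsOpen (W : Set (E₁ ≃ₐ[F] E₁)) := by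
    have h1 : IsOpen ((MulAction.stabilizer (E₂ ≃ₐ[ℚ] E₂) ζ₂ : Subgroup (E₂ ≃ₐ[ℚ] E₂)) :
      Set (E₂ ≃ₐ[ℚ] E₂)) := stabilizer_isOpen_of_isIntegral (K := ℚ) (L := E₂) ζ₂
    have h2 : IsOpen ((MulAction.stabilizer (E₁ ≃ₐ[F] E₁) ζ₁ : Subgroup (E₁ ≃ₐ[F] E₁)) :
      Set (E₁ ≃ₐ[F] E₁)) := stabilizer_isOpen_of_isIntegral (K := F) (L := E₁) ζ₁
    exact (h1.preimage hα).inter h2
  have hW : ∀ g : E₁ ≃ₐ[F] E₁, g ∈ W ↔ α g ζ₂ = ζ₂ ∧ g ζ₁ = ζ₁ := fun g => Iff.rfl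
  obtain ⟨D, h, hD, hh⟩ := exists_conjugates (F := F) hp hζ₁
  by_contra hcon
  push Not at hcon
  have hcon' : ∀ i : ℕ, 0 < i → i < m → α (g ^ i) ζ₂ ≠ ζ₂ := by
    intro i hi him h
    obtain ⟨z, hz, hz'⟩ := hcon i hi him
    apply hz'
    obtain ⟨k, -, rfl⟩ := hζ₂.eq_pow_of_pow_eq_one hz
    rw [map_pow, h]
  have hgroot : ∀ (i : ℕ) (z : E₁), z ^ p = 1 → (g ^ i) z = z := by
    intro i z hz
    induction i with
    | zero => simp
    | succ i ih => rw [pow_succ', AlgEquiv.mul_apply, ih, hg z hz]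
  have hgroot' : ∀ (i : ℕ) (z : E₁), z ^ p = 1 → (g ^ i)⁻¹ z = z := by
    intro i z hz
    conv_lhs => rw [← hgroot i z hz]
    rw [← AlgEquiv.mul_apply, inv_mul_cancel, AlgEquiv.one_apply]
  have hDpos : 0 < D := by
    rcases Nat.eq_zero_or_pos D with h0 | h0
    · rw [h0, mul_zero] at hD
      have := hp.two_le
      omega
    · exact h0
  -- the family of elements in different classes
  let x : Fin m × Fin D → (E₁ ≃ₐ[F] E₁) := fun c => g ^ (c.1 : ℕ) * (h c.2)⁻¹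
  have hx : ∀ c d : Fin m × Fin D, c ≠ d → x d * (x c)⁻¹ ∉ W := by
    intro c d hcd hmem
    have e : x d * (x c)⁻¹ = g ^ (d.1 : ℕ) * (h d.2)⁻¹ * h c.2 * (g ^ (c.1 : ℕ))⁻¹ := by
      show g ^ (d.1 : ℕ) * (h d.2)⁻¹ * (g ^ (c.1 : ℕ) * (h c.2)⁻¹)⁻¹ = _
      group
    rw [e, hW] at hmem
    obtain ⟨hm2, hm1⟩ := hmem
    rw [AlgEquiv.mul_apply, AlgEquiv.mul_apply, AlgEquiv.mul_apply,
      hgroot' _ ζ₁ hζ₁.pow_eq_one, hgroot _ _ (by
        rw [← map_pow, ← map_pow, hζ₁.pow_eq_one, map_one, map_one])] at hm1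
    have h1 : h c.2 ζ₁ = h d.2 ζ₁ := by
      have h2 := congrArg (fun y => h d.2 y) hm1
      rwa [← AlgEquiv.mul_apply, mul_inv_cancel, AlgEquiv.one_apply] at h2
    have h2 : c.2 = d.2 := by
      by_contra hne
      exact hh _ _ hne h1
    have h3 : c.1 ≠ d.1 := by
      intro h3
      exact hcd (Prod.ext h3 h2)
    have h4 : g ^ (d.1 : ℕ) * (h d.2)⁻¹ * h c.2 * (g ^ (c.1 : ℕ))⁻¹ =
        g ^ (d.1 : ℕ) * (g ^ (c.1 : ℕ))⁻¹ := by
      rw [h2, inv_mul_cancel_right]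
    rw [h4] at hm2
    rcases lt_or_gt_of_ne h3 with h5 | h5
    · have h5' : (c.1 : ℕ) < d.1 := h5
      have h6 : g ^ (d.1 : ℕ) * (g ^ (c.1 : ℕ))⁻¹ = g ^ ((d.1 : ℕ) - c.1) := by
        rw [mul_inv_eq_iff_eq_mul, ← pow_add]
        congr 1
        omega
      rw [h6] at hm2
      exact hcon' _ (by omega) (by have := d.1.2; omega) hm2
    · have h5' : (d.1 : ℕ) < c.1 := h5
      have h6 : g ^ (d.1 : ℕ) * (g ^ (c.1 : ℕ))⁻¹ = (g ^ ((c.1 : ℕ) - d.1))⁻¹ := by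
        rw [mul_inv_eq_iff_eq_mul, eq_inv_mul_iff_mul_eq, ← pow_add]
        congr 1
        omega
      rw [h6, map_inv] at hm2
      refine hcon' ((c.1 : ℕ) - d.1) (by omega) (by have := c.1.2; omega) ?_
      conv_lhs => rw [← hm2]
      rw [← AlgEquiv.mul_apply, mul_inv_cancel, AlgEquiv.one_apply]
  have h1 := index_bound W hWo (PS α p) (δ / (p - 1)) hG ∅ Set.finite_empty ?_ (m * D)
    (Nat.mul_pos hm hDpos) (fun i => x (finProdFinEquiv.symm i)) ?_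
  · have hp1 : (0 : ℝ) < (p : ℝ) - 1 := by
      have : (1 : ℝ) < p := by exact_mod_cast hp.one_lt
      linarith
    have hm' : (0 : ℝ) < m := by exact_mod_cast hm
    have hD' : (0 : ℝ) < D := by exact_mod_cast hDpos
    rw [div_le_div_iff₀ hp1 (by positivity)] at h1
    rw [div_lt_iff₀ hm'] at hδm
    have h2 : ((p : ℝ) - 1) ≤ Module.finrank ℚ F * D := by
      have h3 : ((p - 1 : ℕ) : ℝ) ≤ ((Module.finrank ℚ F * D : ℕ) : ℝ) := by exact_mod_cast hD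
      rw [Nat.cast_sub hp.one_le] at h3
      push_cast at h3
      exact h3
    push_cast at h1
    have h4 : (Module.finrank ℚ F : ℝ) * D < δ * m * D := by
      exact mul_lt_mul_of_pos_right hδm hD'
    linarith
  · rintro v ⟨hN, hvp, r, hr, hpr, hv⟩ - O hO hOv s hs hs'
    rw [hW]
    have hlO := natCast_pow_notMem_nonunits hOv hvp
    have hlO1 : (p : E₁) ∉ O.nonunits := by simpa using hlO 1
    refine ⟨fix_of_hit α hr hpr hv O hO hOv s hs ζ₂ hζ₂.pow_eq_one, ?_⟩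
    rw [acts_on_root O s _ hs' p hlO1 ζ₁ hζ₁.pow_eq_one]
    conv_rhs => rw [← pow_one ζ₁]
    exact (rootPow_eq_iff_modEq hζ₁ _ _ hp.pos).2 hN
  · intro i j hij
    exact hx _ _ (fun hcon => hij (finProdFinEquiv.symm.injective hcon))

theorem induced_of_PS [IsGalois F E₁] [IsGalois ℚ E₂] (hE₁ : SolvablyClosed E₁)
    (hE₂ : SolvablyClosed E₂)
    (α : (E₁ ≃ₐ[F] E₁) →* (E₂ ≃ₐ[ℚ] E₂)) (hα : Continuous α) (hopen : IsOpen (Set.range α))
    (Q : Set ℕ) (hQ : MeetsSplit Q) {δ : ℝ} (hδ : 0 < δ)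
    (h : ∀ p : ℕ, p.Prime → p ∈ Q → ∃ᶠ s : ℝ in 𝓝[>] 1,
      δ / (p - 1) * Real.log (1 / (s - 1)) ≤
        ∑' v : PS α p, (Ideal.absNorm v.1.asIdeal : ℝ) ^ (-s)) :
    ∃ j : E₂ →+* E₁, ∀ (g : E₁ ≃ₐ[F] E₁) (x : E₂), g (j x) = j ((α g) x) := by
  obtain ⟨m, hm⟩ := exists_nat_gt ((Module.finrank ℚ F : ℝ) / δ)
  obtain ⟨l, hlm, hl⟩ := Nat.exists_infinite_primes (m + 3)
  have hl2 : l ≠ 2 := by omega
  have hl0 : (0 : ℝ) < l := by exact_mod_cast hl.pos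
  have hlδ : (Module.finrank ℚ F : ℝ) / l < δ := by
    rw [div_lt_iff₀ hδ] at hm
    rw [div_lt_iff₀ hl0]
    have h1 : (m : ℝ) ≤ l := by
      have : m ≤ l := by omega
      exact_mod_cast this
    nlinarith
  refine induced_of_kerQ_B hE₁ hE₂ α hα hopen hl hl2 ⊤ isOpen_univ Q hQ ?_
  intro g _ p a b hp hpQ hlp ha hb ha1
  have hp1 : (0 : ℝ) < (p : ℝ) - 1 := by
    have : (1 : ℝ) < p := by exact_mod_cast hp.one_lt
    linarith
  obtain ⟨ζ₁, hζ₁⟩ := hE₁.exists_primitiveRoot p hp.pos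
  obtain ⟨ζ₂, hζ₂⟩ := hE₂.exists_primitiveRoot p hp.pos
  have hbc : b.Coprime p := exponent_coprime hE₂ (α g) hp.pos hb
  obtain ⟨M, hM⟩ := hlp
  have hMl : (p - 1) / l = M := by rw [hM, Nat.mul_div_cancel_left _ hl.pos]
  rw [hMl] at ha1 ⊢
  have hnz : NeZero p := ⟨hp.ne_zero⟩
  obtain ⟨i, hi0, hil, hi⟩ := exists_open_power' hE₁ hE₂ α hα hp
    (frequently_ofReal F _ (div_pos hδ hp1) (h p hp hpQ)) l hl.pos hlδ (g ^ M) (by
      intro z hz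
      obtain ⟨k, -, rfl⟩ := hζ₁.eq_pow_of_pow_eq_one hz
      rw [map_pow, pow_apply_root g (ha ζ₁ hζ₁.pow_eq_one) M]
      congr 1
      conv_rhs => rw [← pow_one ζ₁]
      exact (rootPow_eq_iff_modEq hζ₁ _ _ hp.pos).2 ha1)
  have h3 : (b ^ M) ^ i ≡ 1 [MOD p] := by
    have h5 := hi ζ₂ hζ₂.pow_eq_one
    rw [map_pow, map_pow, ← pow_mul, pow_apply_root (α g) (hb ζ₂ hζ₂.pow_eq_one)] at h5
    rw [← pow_mul]
    exact (rootPow_eq_iff_modEq hζ₂ _ _ hp.pos).1 (by rw [h5, pow_one])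
  have h4 : (b ^ M) ^ l ≡ 1 [MOD p] := by
    have h5 := Nat.ModEq.pow_totient hbc
    rw [Nat.totient_prime hp, hM, mul_comm, pow_mul] at h5
    exact h5
  rw [← ZMod.natCast_eq_natCast_iff] at h3 h4 ⊢
  push_cast at h3 h4 ⊢
  have h6 := pow_gcd_eq_one.2 ⟨h3, h4⟩
  have h7 : i.gcd l = 1 := ((Nat.Prime.coprime_iff_not_dvd hl).2 (fun h => by
    have := Nat.le_of_dvd hi0 h
    omega)).symm
  rwa [h7, pow_one] at h6

theorem dens_PS (α : (E₁ ≃ₐ[F] E₁) →* (E₂ ≃ₐ[ℚ] E₂)) (R : Set ℕ) (hR : R.Finite)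
    {p : ℕ} (hp : p.Prime) (Z : Type*) [Field Z] [NumberField Z] [IsGalois ℚ Z] (f : F →+* Z)
    (h : ∀ (w : HeightOneSpectrum (𝓞 Z)) (r : ℕ), r.Prime → Ideal.absNorm w.asIdeal = r →
      r ∉ R → ∃ v : HeightOneSpectrum (𝓞 F), (r : 𝓞 F) ∈ v.asIdeal ∧ Hit α v r) :
    ∃ᶠ s : ℝ in 𝓝[>] 1,
      1 / (2 * Module.finrank ℚ Z) / Module.finrank ℚ Z / (p - 1) * Real.log (1 / (s - 1)) ≤
        ∑' v : PS α p, (Ideal.absNorm v.1.asIdeal : ℝ) ^ (-s) := by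
  classical
  have hnz : NeZero p := ⟨hp.ne_zero⟩
  have : NeZero ((p : ℕ) : AlgebraicClosure Z) := ⟨Nat.cast_ne_zero.2 hp.ne_zero⟩
  obtain ⟨ζ, hζ⟩ := HasEnoughRootsOfUnity.exists_primitiveRoot (AlgebraicClosure Z) p
  refine Eventually.frequently (eventually_toReal F _ ?_)
  have hd := eventually_dens_one Z hp hζ ∅ tendsto_empty _ (finite_above_set Z hR)
  have hp1 : (0 : ℝ) < (p : ℝ) - 1 := by
    have : (1 : ℝ) < p := by exact_mod_cast hp.one_lt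
    linarith
  have hZ0 : (0 : ℝ) < Module.finrank ℚ Z := by
    rw [Nat.cast_pos]
    exact Module.finrank_pos
  set A : Set (HeightOneSpectrum (𝓞 Z)) := {v : HeightOneSpectrum (𝓞 Z) |
    (Ideal.absNorm v.asIdeal).Prime ∧ Ideal.absNorm v.asIdeal ∉ (∅ : Set ℕ) ∧
      Ideal.absNorm v.asIdeal ≡ 1 [MOD p] ∧
        v ∉ {v : HeightOneSpectrum (𝓞 Z) | ∃ p ∈ R, p.Prime ∧ (p : 𝓞 Z) ∈ v.asIdeal}} with hA
  have hmap : ∀ w : A, ∃ v : PS α p,
      Ideal.absNorm v.1.asIdeal = Ideal.absNorm w.1.asIdeal := by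
    rintro ⟨w, hw, -, hw1, hwR⟩
    have hwmem : ((Ideal.absNorm w.asIdeal : ℕ) : 𝓞 Z) ∈ w.asIdeal := Ideal.absNorm_mem _
    obtain ⟨v, hvr, hv⟩ := h w _ hw rfl (fun h => hwR ⟨_, h, hw, hwmem⟩)
    have hpr : p ∣ Ideal.absNorm w.asIdeal - 1 := (Nat.modEq_iff_dvd' hw.one_le).1 hw1.symm
    obtain ⟨P, hP⟩ := exists_pull_eq f v
    have hPr : ((Ideal.absNorm w.asIdeal : ℕ) : 𝓞 Z) ∈ P.asIdeal := by
      have h1 := hvr
      rw [← hP, mem_pullPrime, map_natCast] at h1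
      exact h1
    obtain ⟨σ, hσ⟩ := exists_gal_pull w P hw hwmem hPr
    have h1 : Ideal.absNorm P.asIdeal = Ideal.absNorm w.asIdeal := by
      rw [← hσ, absNorm_pull _ w hw]
    have h2 : Ideal.absNorm v.asIdeal = Ideal.absNorm w.asIdeal := by
      rw [← hP, absNorm_pull f P (by rw [h1]; exact hw), h1]
    refine ⟨⟨v, by rw [h2]; exact hw1, ?_, _, hw, hpr, hv⟩, h2⟩
    intro hpv
    obtain ⟨k, hk⟩ := hpr
    have h3 : (1 : 𝓞 F) ∈ v.asIdeal := by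
      have h4 : (1 : 𝓞 F) = ((Ideal.absNorm w.asIdeal : ℕ) : 𝓞 F) - (p : 𝓞 F) * (k : 𝓞 F) := by
        rw [← Nat.cast_mul, ← hk, Nat.cast_sub hw.one_le, Nat.cast_one]
        ring
      rw [h4]
      exact v.asIdeal.sub_mem hvr (v.asIdeal.mul_mem_right _ hpv)
    exact v.isPrime.ne_top ((Ideal.eq_top_iff_one _).2 h3)
  choose φ hφ using hmap
  refine hd.mono fun s hs => ?_
  have h3 := tsum_fiber_le Z A (fun w hw => hw.1) φ
    (fun v => ENNReal.ofReal (nm F v.1 s)) s (fun w => by rw [nm, nm, hφ])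
    (fun w w' hww => by rw [← hφ, ← hφ, hww])
  rw [RingOfIntegers.rank] at h3
  have h4 := hs.trans h3
  have h5 : ENNReal.ofReal (1 / (2 * Module.finrank ℚ Z) / (p - 1) * Real.log (1 / (s - 1))) =
      (Module.finrank ℚ Z : ℝ≥0∞) * ENNReal.ofReal
        (1 / (2 * Module.finrank ℚ Z) / Module.finrank ℚ Z / (p - 1) *
          Real.log (1 / (s - 1))) := by
    rw [← ENNReal.ofReal_natCast, ← ENNReal.ofReal_mul hZ0.le]
    congr 1
    field_simp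
  rw [h5] at h4
  exact (ENNReal.mul_le_mul_iff_right (Nat.cast_ne_zero.2 (by
    intro h0; rw [h0] at hZ0; simp at hZ0)) (ENNReal.natCast_ne_top _)).1 h4

end

/-- Block (F). -/
theorem propF.{u, v} : PropF.{u, v} := by
  intro E₁ E₂ _ _ _ _ _ _ _ hE₂ F _ a ha hopen hV
  obtain ⟨V, hVn, hVo, B, hB, hmatch⟩ := hV
  have h1 : IsAlgClosure ℚ E₁ := ⟨inferInstance, inferInstance⟩
  have hG : IsGalois ℚ E₁ := IsGalois.mk
  have hGF : IsGalois F E₁ := inferInstance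
  have hE₁ : SolvablyClosed E₁ := by
    intro M _ _
    exact IntermediateField.eq_bot_of_isAlgClosed_of_isAlgebraic M
  have halg : Algebra.IsAlgebraic ℚ E₂ := Algebra.IsAlgebraic.trans ℚ ℚ E₂
  obtain ⟨hfd, -⟩ := finiteDimensional_fixedField V hVo
  let L : IntermediateField ℚ E₂ := IntermediateField.fixedField V
  have hLfd : FiniteDimensional ℚ L := hfd
  let ι : L →ₐ[ℚ] E₁ := IsAlgClosed.lift
  have hFfd : FiniteDimensional ℚ F := NumberField.to_finiteDimensional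
  have hLfd' : FiniteDimensional ℚ ι.fieldRange :=
    LinearEquiv.finiteDimensional (AlgEquiv.ofInjectiveField ι).toLinearEquiv
  let K₀ : IntermediateField ℚ E₁ := F ⊔ ι.fieldRange
  have hKfd : FiniteDimensional ℚ K₀ := IntermediateField.finiteDimensional_sup F ι.fieldRange
  let Z : IntermediateField ℚ E₁ := IntermediateField.normalClosure ℚ K₀ E₁
  have hZfd : FiniteDimensional ℚ Z := normalClosure.is_finiteDimensional ℚ K₀ E₁
  have hZN : NumberField Z := NumberField.of_module_finite ℚ Z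
  have hN : Normal ℚ Z := normalClosure.normal ℚ K₀ E₁
  have hZG : IsGalois ℚ Z := ⟨⟩
  have hle : K₀ ≤ Z := IntermediateField.le_normalClosure K₀
  let f : F →+* Z := (IntermediateField.inclusion (le_sup_left.trans hle)).toRingHom
  let ι' : L →+* Z := ((IntermediateField.inclusion
    ((le_sup_right : ι.fieldRange ≤ K₀).trans hle)).comp
      (ι.rangeRestrict : L →ₐ[ℚ] ι.range)).toRingHom
  obtain ⟨R, hR, hsplit⟩ := exists_splits (Z := Z) V hVn hVo ι'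
  have hZ0 : (0 : ℝ) < Module.finrank ℚ Z := by
    rw [Nat.cast_pos]
    exact Module.finrank_pos
  refine induced_of_PS hE₁ hE₂ a ha hopen _ (meetsSplit_compl tendsto_empty)
    (δ := 1 / (2 * Module.finrank ℚ Z) / Module.finrank ℚ Z) (by positivity) ?_
  intro p hp _
  refine dens_PS a (R ∪ B) (hR.union hB) hp Z f ?_
  intro w r hr hw hrR
  exact hmatch r hr (fun h => hrR (Or.inr h)) (hsplit w r hr hw (fun h => hrR (Or.inl h)))

end Vale.Agent.P024.ALL.H95
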