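import Vale.Agent.P024.ALL.Spec

/-!
P024, block (F) of note 20992, local part: decomposition groups at primes which split completely.
-/

namespace Vale.Agent.P024.ALL.H95

open scoped NumberField ENNReal Topology
open IsDedekindDomain NumberField Filter Vale.Agent.P024

section Res

variable {E : Type*} [Field E]

theorem natCast_mem' (O : ValuationSubring E) (n : ℕ) : (n : E) ∈ O := by
  exact_mod_cast natCast_mem O n

/-- An element whose `r`-th power is congruent to itself is congruent to an integer. -/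
theorem exists_int_sub (O : ValuationSubring E) {r : ℕ} (hr : r.Prime)
    (hrO : (r : E) ∈ O.nonunits) {z : E} (hzO : z ∈ O) (hz : z ^ r - z ∈ O.nonunits) :
    ∃ c : ℤ, z - c ∈ O.nonunits := by
  have : Fact r.Prime := ⟨hr⟩
  let κ := IsLocalRing.ResidueField O
  let res : O →+* κ := IsLocalRing.residue O
  have hmem : ∀ y : O, (y : E) ∈ O.nonunits ↔ res y = 0 := by
    intro y
    rw [ValuationSubring.mem_nonunits_iff_exists_mem_maximalIdeal, IsLocalRing.residue_eq_zero_iff]
    constructor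
    · rintro ⟨_, h⟩
      exact h
    · intro h
      exact ⟨y.2, h⟩
  have hr0 : (r : κ) = 0 := by
    have h1 := (hmem ((r : ℕ) : O)).1 (by simpa using hrO)
    rwa [map_natCast] at h1
  obtain ⟨q, hq⟩ := CharP.exists κ
  have hqr : q ∣ r := (CharP.cast_eq_zero_iff κ q r).1 hr0
  have hqr' : q = r := by
    rcases (Nat.dvd_prime hr).1 hqr with h | h
    · exact absurd h (CharP.char_ne_one κ q)
    · exact h
  subst hqr'
  have h1 : (res ⟨z, hzO⟩) ^ q = res ⟨z, hzO⟩ := by
    rw [← sub_eq_zero, ← map_pow, ← map_sub, ← hmem]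
    simpa using hz
  have h2 := (Subfield.mem_bot_iff_pow_eq_self κ q).2 h1
  rw [mem_bot_iff_intCast q] at h2
  obtain ⟨c, hc⟩ := h2
  refine ⟨c, ?_⟩
  have h3 := (hmem (⟨z, hzO⟩ - (c : O))).2 (by rw [map_sub, map_intCast, hc, sub_self])
  simpa using h3

end Res

section Loc

variable {F E : Type*} [Field F] [Field E] [Algebra F E]

theorem stab_nonunits {O : ValuationSubring E} {g : E ≃ₐ[F] E} (hg : Stab O g) {x : E}
    (hx : x ∈ O.nonunits) : g x ∈ O.nonunits := by
  rw [ValuationSubring.mem_nonunits_iff_or] at hx ⊢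
  rcases hx with hx | hx
  · left; rw [hx, map_zero]
  · right
    rw [← map_inv₀, hg]
    exact hx

/-- Elements of the decomposition group fix modulo the valuation ring the elements which are
congruent to their `r`-th power. -/
theorem sub_mem_of_pow (O : ValuationSubring E) {r : ℕ} (hr : r.Prime)
    (hrO : (r : E) ∈ O.nonunits) {z : E} (hzO : z ∈ O) (hz : z ^ r - z ∈ O.nonunits)
    {g : E ≃ₐ[F] E} (hg : Stab O g) : g z - z ∈ O.nonunits := by
  obtain ⟨c, hc⟩ := exists_int_sub O hr hrO hzO hz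
  have h1 := stab_nonunits hg hc
  rw [map_sub, map_intCast] at h1
  have h2 : g z - z = (g z - c) - (z - c) := by ring
  rw [h2]
  exact O.nonunits.sub_mem h1 hc

/-- Elements of the decomposition group at a prime congruent to one modulo `n` fix the roots of
unity of order `n`. -/
theorem stab_root (O : ValuationSubring E) {r n : ℕ} (hr : r.Prime)
    (hrO : (r : E) ∈ O.nonunits) (hn : n ∣ r - 1) {g : E ≃ₐ[F] E} (hg : Stab O g)
    {z : E} (hz : z ^ n = 1) : g z = z := by
  have hnO : (n : E) ∉ O.nonunits := by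
    intro h
    obtain ⟨k, hk⟩ := hn
    have h1 : ((r - 1 : ℕ) : E) ∈ O.nonunits := by
      rw [hk, Nat.cast_mul, mul_comm]
      exact Near.mul_mem_nonunits ((O.valuation_le_one_iff _).2 (natCast_mem' O k)) h
    have h2 : (1 : E) = (r : E) - ((r - 1 : ℕ) : E) := by
      rw [Nat.cast_sub hr.one_le, Nat.cast_one]; ring
    have h3 : (1 : E) ∈ O.nonunits := by
      rw [h2]
      exact O.nonunits.sub_mem hrO h1
    rw [ValuationSubring.mem_nonunits_iff, map_one] at h3
    exact lt_irrefl _ h3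
  have hn0 : n ≠ 0 := by
    rintro rfl
    exact hnO (by simp)
  have hz0 : z ≠ 0 := by
    rintro rfl
    rw [zero_pow hn0] at hz
    exact zero_ne_one hz
  have hv : O.valuation z = 1 := by
    have h1 : O.valuation z ^ n = 1 := by rw [← map_pow, hz, map_one]
    exact (pow_eq_one_iff_of_nonneg zero_le hn0).1 h1
  have hzO : z ∈ O := (O.valuation_le_one_iff _).1 hv.le
  have hzr : z ^ r = z := by
    obtain ⟨k, hk⟩ := hn
    have h1 : r = n * k + 1 := by
      rw [← hk, Nat.sub_add_cancel hr.one_le]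
    rw [h1, pow_succ, pow_mul, hz, one_pow, one_mul]
  have h1 : g z - z ∈ O.nonunits :=
    sub_mem_of_pow O hr hrO hzO (by rw [hzr, sub_self]; simp) hg
  have h2 : (g z / z) ^ n = 1 := by
    rw [div_pow, ← map_pow, hz, map_one, div_one]
  have h3 : g z / z - 1 ∈ O.nonunits := by
    rw [ValuationSubring.mem_nonunits_iff] at h1 ⊢
    have h4 : g z / z - 1 = (g z - z) / z := by
      rw [sub_div, div_self hz0]
    rw [h4, map_div₀, hv, div_one]
    exact h1
  have h4 := root_eq_one O n hnO _ h2 h3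
  rwa [div_eq_one_iff_eq hz0] at h4

end Loc

section Split

variable {E Z : Type*} [Field E] [CharZero E] [Algebra.IsAlgebraic ℚ E]
  [Field Z] [NumberField Z] [IsGalois ℚ Z]

/-- All integers of `Z` are congruent to their `r`-th power modulo the primes above `r`, if one of
these primes has norm `r`. -/
theorem pow_sub_mem {w P : HeightOneSpectrum (𝓞 Z)} {r : ℕ} (hr : r.Prime)
    (hw : Ideal.absNorm w.asIdeal = r) (hP : (r : 𝓞 Z) ∈ P.asIdeal) (x : 𝓞 Z) :
    x ^ r - x ∈ P.asIdeal := by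
  have hwr : (r : 𝓞 Z) ∈ w.asIdeal := by
    rw [← hw]
    exact Ideal.absNorm_mem _
  obtain ⟨σ, hσ⟩ := exists_gal_pull w P hr hwr hP
  rw [← hσ, mem_pullPrime, map_sub, map_pow]
  set y := RingOfIntegers.mapRingHom (σ : Z →+* Z) x
  have hwp := w.isPrime
  have hwm : w.asIdeal.IsMaximal := w.isMaximal
  let _ : Field (𝓞 Z ⧸ w.asIdeal) := Ideal.Quotient.field _
  have hcard : Nat.card (𝓞 Z ⧸ w.asIdeal) = r := by
    rw [← Submodule.cardQuot_apply, ← Ideal.absNorm_apply, hw]
  have hfin : Finite (𝓞 Z ⧸ w.asIdeal) := Nat.finite_of_card_ne_zero (by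
    rw [hcard]; exact hr.ne_zero)
  let _ : Fintype (𝓞 Z ⧸ w.asIdeal) := Fintype.ofFinite _
  rw [← Ideal.Quotient.eq_zero_iff_mem, map_sub, map_pow, sub_eq_zero]
  have h1 := FiniteField.pow_card (Ideal.Quotient.mk w.asIdeal y)
  rwa [← Nat.card_eq_fintype_card, hcard] at h1

/-- Almost all primes with a prime of degree one in `Z` split completely in the fixed field of `V`,
if the latter embeds in `Z`. -/
theorem exists_splits [IsGalois ℚ E] (V : Subgroup (E ≃ₐ[ℚ] E)) (hVn : V.Normal)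
    (hV : IsOpen (V : Set (E ≃ₐ[ℚ] E)))
    (ι : IntermediateField.fixedField V →+* Z) :
    ∃ R : Set ℕ, R.Finite ∧ ∀ (w : HeightOneSpectrum (𝓞 Z)) (r : ℕ), r.Prime →
      Ideal.absNorm w.asIdeal = r → r ∉ R → Splits V r := by
  classical
  obtain ⟨hfd, hfix⟩ := finiteDimensional_fixedField V hV
  set L := IntermediateField.fixedField V with hL
  have hLN : NumberField L := NumberField.of_module_finite ℚ L
  have hnorm : Normal ℚ L := by
    have h1 : IsClosed (V : Set (E ≃ₐ[ℚ] E)) := V.isClosed_of_isOpen hV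
    have h2 : L.fixingSubgroup.Normal := by rw [hfix]; exact hVn
    have h3 : IsGalois ℚ L := InfiniteGalois.normal_iff_isGalois L |>.1 h2
    exact h3.to_normal
  have hex : ∀ σ : L ≃ₐ[ℚ] L, σ ≠ 1 → ∃ x : 𝓞 L, σ (x : L) ≠ (x : L) := by
    intro σ hσ
    by_contra hcon
    push Not at hcon
    apply hσ
    ext y
    obtain ⟨d, hd0, hdy⟩ := ((IsFractionRing.isAlgebraic_iff ℤ ℚ L (x := y)).2
      (Algebra.IsAlgebraic.isAlgebraic y)).exists_integral_multiple
    have h1 := hcon ⟨d • y, hdy⟩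
    have h2 : σ (d • y) = d • y := h1
    rw [map_zsmul, zsmul_eq_mul, zsmul_eq_mul] at h2
    have h3 : (d : L) ≠ 0 := Int.cast_ne_zero.2 hd0
    rw [mul_left_cancel₀ h3 h2]
    rfl
  choose! x hx using hex
  let y : (L ≃ₐ[ℚ] L) → 𝓞 L := fun σ => RingOfIntegers.mapRingHom (σ : L →+* L) (x σ) - x σ
  have hy : ∀ σ, σ ≠ 1 → y σ ≠ 0 := by
    intro σ hσ h
    apply hx σ hσ
    have h1 := congrArg (fun t : 𝓞 L => (t : L)) h
    simp only [y, map_sub, map_zero] at h1
    exact sub_eq_zero.1 h1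
  let N : (L ≃ₐ[ℚ] L) → ℕ := fun σ => Ideal.absNorm (Ideal.span {y σ})
  refine ⟨⋃ σ ∈ {σ : L ≃ₐ[ℚ] L | σ ≠ 1}, {r : ℕ | r ∣ N σ}, ?_, ?_⟩
  · refine Set.Finite.biUnion (Set.toFinite _) ?_
    intro σ hσ
    have h1 : N σ ≠ 0 := by
      rw [Ne, Ideal.absNorm_eq_zero_iff, Ideal.span_singleton_eq_bot]
      exact hy σ hσ
    refine (Set.finite_Iic (N σ)).subset ?_
    intro r hr
    exact Nat.le_of_dvd (Nat.pos_of_ne_zero h1) hr
  · intro w r hr hw hrR O₂ hO₂ hrO₂ s hs
    obtain ⟨P, hP⟩ := exists_center (K := L) O₂ hO₂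
    have hrP : (r : 𝓞 L) ∈ P.asIdeal := by
      rw [hP]
      simpa using hrO₂
    obtain ⟨Q, hQ⟩ := exists_pull_eq ι P
    have hrQ : (r : 𝓞 Z) ∈ Q.asIdeal := by
      have h1 := hrP
      rw [← hQ, mem_pullPrime, map_natCast] at h1
      exact h1
    have hpow : ∀ t : 𝓞 L, t ^ r - t ∈ P.asIdeal := by
      intro t
      rw [← hQ, mem_pullPrime, map_sub, map_pow]
      exact pow_sub_mem hr hw hrQ _
    let σ : L ≃ₐ[ℚ] L := s.restrictNormal L
    have hσ : ∀ t : L, ((σ t : L) : E) = s (t : E) := fun t => s.restrictNormal_commutes L t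
    by_cases h1 : σ = 1
    · rw [← hfix, IntermediateField.mem_fixingSubgroup_iff]
      intro t ht
      have h2 := hσ ⟨t, ht⟩
      rw [h1] at h2
      exact h2.symm
    · exfalso
      apply hrR
      refine Set.mem_biUnion (show σ ∈ {σ : L ≃ₐ[ℚ] L | σ ≠ 1} from h1) ?_
      show r ∣ N σ
      have h2 : y σ ∈ P.asIdeal := by
        rw [hP]
        have h3 : (algebraMap L E) ((y σ : 𝓞 L) : L) = s ((x σ : 𝓞 L) : L) - ((x σ : 𝓞 L) : L) := by
          have h4 : ((y σ : 𝓞 L) : L) = σ ((x σ : 𝓞 L) : L) - ((x σ : 𝓞 L) : L) := by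
            simp only [y, map_sub]
            rfl
          rw [h4, map_sub]
          have h5 : algebraMap L E (σ ((x σ : 𝓞 L) : L)) = s ((x σ : 𝓞 L) : L) := hσ _
          rw [h5]
          rfl
        rw [h3]
        refine sub_mem_of_pow O₂ hr hrO₂ ?_ ?_ hs
        · exact coe_mem_valuationSubring O₂ (algebraMap (𝓞 L) (𝓞 E) (x σ))
        · have h4 := (hP _).1 (hpow (x σ))
          have h5 : ((x σ ^ r - x σ : 𝓞 L) : L) = ((x σ : 𝓞 L) : L) ^ r - ((x σ : 𝓞 L) : L) := by
            simp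
          rw [h5, map_sub, map_pow] at h4
          exact h4
      have h3 : ((N σ : ℕ) : 𝓞 L) ∈ P.asIdeal := by
        have h4 : ((N σ : ℕ) : 𝓞 L) ∈ Ideal.span {y σ} := Ideal.absNorm_mem _
        exact (Ideal.span_singleton_le_iff_mem _).2 h2 h4
      by_contra h4
      have h5 : Nat.Coprime r (N σ) := (Nat.Prime.coprime_iff_not_dvd hr).2 h4
      have h6 : IsCoprime ((r : ℕ) : ℤ) ((N σ : ℕ) : ℤ) := Nat.isCoprime_iff_coprime.2 h5
      obtain ⟨a, b, hab⟩ := h6
      have h7 : (1 : 𝓞 L) ∈ P.asIdeal := by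
        have h8 : (1 : 𝓞 L) = (a : 𝓞 L) * (r : 𝓞 L) + (b : 𝓞 L) * ((N σ : ℕ) : 𝓞 L) := by
          have h9 := congrArg (fun t : ℤ => (t : 𝓞 L)) hab
          simp only [Int.cast_add, Int.cast_mul, Int.cast_natCast, Int.cast_one] at h9
          exact h9.symm
        rw [h8]
        exact P.asIdeal.add_mem (P.asIdeal.mul_mem_left _ hrP) (P.asIdeal.mul_mem_left _ h3)
      exact P.isPrime.ne_top ((Ideal.eq_top_iff_one _).2 h7)

end Split

end Vale.Agent.P024.ALL.H95
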